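import Vale.Agent.P249.H560.Mix

/-!
# P249: the exponent `max (1 / p) (1 / 2)` and the dependence on the distortion
-/

set_option linter.all false

open MeasureTheory Filter Asymptotics
open scoped ENNReal BigOperators

namespace Vale.Agent.P249.H560

open Vale.Agent.P249

theorem HasKernels.mono {P : ℝ} {V : Type*} [Fintype V] {ρ : V → V → ℝ} {U U' : ℝ}
    (h : HasKernels P ρ U) (hU : U ≤ U') : HasKernels P ρ U' := by
  intro J
  obtain ⟨K, h1, h2, h3⟩ := h J
  exact ⟨K, h1, h2, fun x => (h3 x).trans hU⟩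

/-- Kernels at all scales for `P > 2`, with the moment sum `(log n) ^ (P / 2 + ε)`. -/
theorem kernels_gt_two' (P : ℝ) (hP : 2 < P) (ε : ℝ) (hε : 0 < ε) : ∃ C : ℝ, 0 < C ∧
    ∀ {V : Type*} [Fintype V] [Nonempty V] {N : ℕ} (f : V → Fin N → ℝ),
      HasKernels P (lpd P f) (C * (1 + Real.log (Fintype.card V)) ^ (P / 2 + ε)) := by
  obtain ⟨A, hA, H⟩ := kernels_sum hP
  obtain ⟨A₀, hA₀⟩ : ∃ A₀ : ℝ, A₀ = 4 ^ (P + 1) * (16 * P * 2 ^ (P - 2)) ^ 2 := ⟨_, rfl⟩
  have hP0 : 0 < P := by linarith only [hP]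
  have hA₀0 : 0 ≤ A₀ := by rw [hA₀]; positivity
  set C₁ : ℝ := 5 + 2 * (1 + Real.log (1 + A₀) + 1 / ε) with hC₁
  have hlogA : 0 ≤ Real.log (1 + A₀) := Real.log_nonneg (by linarith only [hA₀0])
  have hC₁0 : 0 < C₁ := by positivity
  refine ⟨A * (1 + A₀) ^ (P / 2 - 1) * C₁, by positivity, ?_⟩
  intro V _ _ N f
  set l := Real.log (Fintype.card V) with hl
  have hcard : (1 : ℝ) ≤ Fintype.card V := by exact_mod_cast Fintype.card_pos
  have hl0 : 0 ≤ l := Real.log_nonneg hcard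
  have hl1 : 1 ≤ 1 + l := by linarith only [hl0]
  have hlp : 0 < 1 + l := by linarith only [hl0]
  set R : ℝ := Real.sqrt (1 + A₀ * l) with hR
  have hAl : 0 ≤ A₀ * l := mul_nonneg hA₀0 hl0
  have hR2 : R ^ 2 = 1 + A₀ * l := Real.sq_sqrt (by linarith only [hAl])
  have hR1 : 1 ≤ R := by rw [hR, Real.one_le_sqrt]; linarith only [hAl]
  have hR0 : 0 < R := by linarith only [hR1]
  obtain ⟨k, -, hk, hk'⟩ := exists_iterations (l := 2 * R) (by linarith only [hR1])
  refine HasKernels.mono (H f R hR1 ?_ k hk) ?_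
  · rw [hR2, hA₀]
    linarith only []
  have hRle : R ^ 2 ≤ (1 + A₀) * (1 + l) := by
    rw [hR2]
    nlinarith only [hA₀0, hl0]
  have h1 : R ^ (P - 2) ≤ (1 + A₀) ^ (P / 2 - 1) * (1 + l) ^ (P / 2 - 1) := by
    rw [← Real.mul_rpow (by positivity) hlp.le]
    have : R ^ (P - 2) = (R ^ 2) ^ (P / 2 - 1) := by
      rw [← Real.rpow_natCast, ← Real.rpow_mul hR0.le]
      congr 1
      push_cast
      ring
    rw [this]
    exact Real.rpow_le_rpow (by positivity) hRle (by linarith only [hP])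
  have h2 : (k : ℝ) + 3 ≤ C₁ * (1 + l) ^ ε := by
    have e1 : Real.log (2 * R) ≤ 1 + Real.log (1 + A₀) + Real.log (1 + l) := by
      rw [Real.log_mul (by norm_num) hR0.ne']
      have e2 : 2 * Real.log R ≤ Real.log (1 + A₀) + Real.log (1 + l) := by
        have e3 : 2 * Real.log R = Real.log (R ^ 2) := by rw [Real.log_pow]; push_cast; ring
        rw [e3, ← Real.log_mul (by positivity) hlp.ne']
        exact Real.log_le_log (by positivity) hRle
      have e4 : Real.log 2 ≤ 1 := by linarith only [Real.log_two_lt_d9]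
      have e5 : 0 ≤ Real.log (1 + l) := Real.log_nonneg hl1
      linarith only [e2, e4, e5, hlogA]
    have e6 : Real.log (1 + l) ≤ (1 + l) ^ ε / ε := Real.log_le_rpow_div hlp.le hε
    have e7 : 1 ≤ (1 + l) ^ ε := Real.one_le_rpow hl1 hε.le
    have e8 : (1 + l) ^ ε / ε = 1 / ε * (1 + l) ^ ε := by ring
    have e9 : (1 + Real.log (1 + A₀)) * 1 ≤ (1 + Real.log (1 + A₀)) * (1 + l) ^ ε :=
      mul_le_mul_of_nonneg_left e7 (by linarith only [hlogA])
    rw [e8] at e6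
    have e10 : C₁ * (1 + l) ^ ε = 5 * (1 + l) ^ ε + 2 * ((1 + Real.log (1 + A₀)) * (1 + l) ^ ε +
        1 / ε * (1 + l) ^ ε) := by rw [hC₁]; ring
    rw [e10]
    linarith only [hk', e1, e6, e7, e9]
  have h3 : (1 + l) ^ (P / 2 + ε) = (1 + l) ^ (P / 2 - 1) * (1 + l) ^ ε * (1 + l) := by
    have : P / 2 + ε = P / 2 - 1 + ε + 1 := by ring
    rw [this, Real.rpow_add hlp, Real.rpow_add hlp, Real.rpow_one]
  rw [h3]
  have h4 : 0 ≤ (1 + A₀) ^ (P / 2 - 1) * (1 + l) ^ (P / 2 - 1) := by positivity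
  have h5 : 0 ≤ C₁ * (1 + l) ^ ε := by positivity
  have hk3 : (0 : ℝ) ≤ (k : ℝ) + 3 := by positivity
  calc A * R ^ (P - 2) * (k + 3) * l
      ≤ A * ((1 + A₀) ^ (P / 2 - 1) * (1 + l) ^ (P / 2 - 1)) * (C₁ * (1 + l) ^ ε) * (1 + l) := by
        refine mul_le_mul ?_ (by linarith only []) hl0 (by positivity)
        refine mul_le_mul (mul_le_mul_of_nonneg_left h1 hA.le) h2 hk3 (by positivity)
    _ = _ := by ring

/-- Kernels at all scales with the exponent `θ > max (1 / P) (1 / 2)`. -/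
theorem exists_kernels' (P : ℝ) (hP : 1 < P) (θ : ℝ) (hθ : max (1 / P) (1 / 2) < θ) :
    ∃ C : ℝ, 0 < C ∧ ∀ {V : Type*} [Fintype V] [Nonempty V] {N : ℕ} (f : V → Fin N → ℝ),
      HasKernels P (lpd P f) (C * (1 + Real.log (Fintype.card V)) ^ (θ * P)) := by
  have hP0 : 0 < P := by linarith only [hP]
  have hθ1 : 1 / P < θ := lt_of_le_of_lt (le_max_left _ _) hθ
  have hθ2 : 1 / 2 < θ := lt_of_le_of_lt (le_max_right _ _) hθ
  rcases le_or_gt P 2 with h2 | h2
  · obtain ⟨C, hC, h⟩ := kernels_le_two P hP.le h2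
    refine ⟨C, hC, fun {V} _ _ {N} f => ?_⟩
    have hcard : (1 : ℝ) ≤ Fintype.card V := by exact_mod_cast Fintype.card_pos
    have hl0 : 0 ≤ Real.log (Fintype.card V) := Real.log_nonneg hcard
    refine HasKernels.mono (h f) (mul_le_mul_of_nonneg_left ?_ hC.le)
    have h3 : 1 ≤ θ * P := by
      rw [div_lt_iff₀ hP0] at hθ1
      exact hθ1.le
    have h4 : (1 + Real.log (Fintype.card V)) ^ (1 : ℝ) ≤
        (1 + Real.log (Fintype.card V)) ^ (θ * P) :=
      Real.rpow_le_rpow_of_exponent_le (by linarith only [hl0]) h3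
    rw [Real.rpow_one] at h4
    linarith only [h4]
  · have hε : 0 < θ * P - P / 2 := by
      have : 1 / 2 * P < θ * P := mul_lt_mul_of_pos_right hθ2 hP0
      linarith only [this]
    obtain ⟨C, hC, h⟩ := kernels_gt_two' P h2 (θ * P - P / 2) hε
    refine ⟨C, hC, fun {V} _ _ {N} f => ?_⟩
    have h3 := h f
    have h4 : P / 2 + (θ * P - P / 2) = θ * P := by ring
    rw [h4] at h3
    exact h3

theorem exponent_lt_one' {P : ℝ} (hP : 1 < P) : max (1 / P) (1 / 2) < 1 := by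
  refine max_lt ?_ (by norm_num)
  rw [div_lt_one (by linarith only [hP])]
  exact hP

/-- Near-isometric halving with the exponent `θ > max (1 / p) (1 / 2)`. -/
theorem near_halving' (p : ℝ≥0∞) [Fact (1 ≤ p)] (hp1 : 1 < p) (hp : p ≠ ∞) (θ : ℝ)
    (hθ : max (1 / p.toReal) (1 / 2) < θ) (hθ1 : θ ≤ 1) : NearHalvingStatement p θ := by
  have hP1 : 1 < p.toReal := by
    have := (ENNReal.toReal_lt_toReal (by norm_num) hp).2 hp1
    simpa using this
  obtain ⟨C, hC, h⟩ := exists_kernels' p.toReal hP1 θ hθ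
  exact near_halving p hp θ (lt_of_lt_of_le (by norm_num) ((le_max_right _ _).trans hθ.le)) hθ1
    ⟨C, hC, fun f => h f⟩

end Vale.Agent.P249.H560
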