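import Vale.Agent.P249.Bdl.B1

/-!
# P249: crude kernels with a localised moment bound, `P > 2`
-/

set_option linter.all false

open scoped ENNReal BigOperators

namespace Vale.Agent.P249.H560

open Vale.Agent.P249

section

variable {P : ℝ} {V : Type*} [Fintype V] {N : ℕ} (f : V → Fin N → ℝ)

/-- The number of points in the closed ball of radius `r` around `x`. -/
noncomputable def nb (P : ℝ) (f : V → Fin N → ℝ) (x : V) (r : ℝ) : ℝ :=
  open Classical in ((Finset.univ.filter fun y => lpd P f x y ≤ r).card : ℝ)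

theorem one_le_nb (hP : 0 < P) (x : V) {r : ℝ} (hr : 0 ≤ r) : 1 ≤ nb P f x r := by
  classical
  unfold nb
  have : 0 < (Finset.univ.filter fun y => lpd P f x y ≤ r).card := by
    refine Finset.card_pos.2 ⟨x, ?_⟩
    simp only [Finset.mem_filter, Finset.mem_univ, true_and]
    rw [lpd_self f hP]
    exact hr
  convert (by exact_mod_cast this :
    (1 : ℝ) ≤ ((Finset.univ.filter fun y => lpd P f x y ≤ r).card : ℝ))

theorem nb_le_card (x : V) (r : ℝ) : nb P f x r ≤ Fintype.card V := by
  classical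
  unfold nb
  exact_mod_cast Finset.card_le_univ _

theorem nb_mono (x : V) {r r' : ℝ} (h : r ≤ r') : nb P f x r ≤ nb P f x r' := by
  classical
  unfold nb
  have : (Finset.univ.filter fun y => lpd P f x y ≤ r).card ≤
      (Finset.univ.filter fun y => lpd P f x y ≤ r').card := by
    refine Finset.card_le_card fun y hy => ?_
    simp only [Finset.mem_filter, Finset.mem_univ, true_and] at hy ⊢
    exact hy.trans h
  exact_mod_cast this

/-- The second Jensen estimate for the Lipschitz constants of the Mazur maps. -/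
theorem jensen2 (hP : 2 < P) {K : V → V → ℝ} (hK : IsStoch K) {S σ : ℝ} (hσ : 0 ≤ σ)
    (hσS : σ ≤ S) (x y : V) (hxy : lpd P f x y ≤ σ)
    (hM : ∑ c, K x c * lpd P f x c ^ P ≤ S ^ P) :
    ∑ c, K x c * (lpd P f x c ^ P + lpd P f y c ^ P) ^ (1 - 2 / P) ≤
      2 ^ (P + 1) * S ^ (P - 2) := by
  have hP0 : 0 < P := by linarith only [hP]
  have hP1 : 1 ≤ P := by linarith
  have hS : 0 ≤ S := hσ.trans hσS
  have hinv : 2 / P < 1 := by rw [div_lt_one hP0]; exact hP
  have hinv0 : 0 < 2 / P := by positivity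
  have hκ0 : 0 ≤ 1 - 2 / P := by linarith only [hinv]
  have hκ1 : 1 - 2 / P ≤ 1 := by linarith only [hinv0]
  have hpt : ∀ c, lpd P f x c ^ P + lpd P f y c ^ P ≤ 2 ^ P * (lpd P f x c ^ P + S ^ P) := by
    intro c
    have h0 := lpd_nonneg (P := P) f x c
    have h1 : lpd P f y c ≤ lpd P f x c + S := by
      have := lpd_triangle f hP1 y x c
      rw [lpd_comm f y x] at this
      linarith only [hσS, hxy, this]
    have h2 : lpd P f y c ^ P ≤ (lpd P f x c + S) ^ P :=
      Real.rpow_le_rpow (lpd_nonneg f y c) h1 hP0.le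
    have h3 : (lpd P f x c + S) ^ P ≤ 2 ^ (P - 1) * (lpd P f x c ^ P + S ^ P) := by
      have h := NNReal.rpow_add_le_mul_rpow_add_rpow ⟨lpd P f x c, h0⟩ ⟨S, hS⟩ hP1
      have h' := NNReal.coe_le_coe.2 h
      push_cast at h'
      exact h'
    have h4 : (2 : ℝ) ^ P = 2 ^ (P - 1) * 2 := by
      rw [← Real.rpow_add_one (by norm_num)]; congr 1; ring
    have h5 : (1 : ℝ) ≤ 2 ^ (P - 1) := Real.one_le_rpow (by norm_num) (by linarith only [hP])
    have h6 : 0 ≤ lpd P f x c ^ P := Real.rpow_nonneg h0 _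
    have h7 : 0 ≤ S ^ P := Real.rpow_nonneg hS _
    rw [h4]
    nlinarith only [h2, h3, h5, h6, h7]
  have h1 : ∑ c, K x c * (lpd P f x c ^ P + lpd P f y c ^ P) ^ (1 - 2 / P) ≤
      (∑ c, K x c * (lpd P f x c ^ P + lpd P f y c ^ P)) ^ (1 - 2 / P) :=
    sum_mul_rpow_le (fun c => hK.1 x c) (hK.2 x)
      (fun c => add_nonneg (Real.rpow_nonneg (lpd_nonneg f _ _) _)
        (Real.rpow_nonneg (lpd_nonneg f _ _) _)) hκ0 hκ1
  have h2 : ∑ c, K x c * (lpd P f x c ^ P + lpd P f y c ^ P) ≤ 2 ^ (P + 1) * S ^ P := by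
    calc ∑ c, K x c * (lpd P f x c ^ P + lpd P f y c ^ P)
        ≤ ∑ c, K x c * (2 ^ P * (lpd P f x c ^ P + S ^ P)) :=
          Finset.sum_le_sum fun c _ => mul_le_mul_of_nonneg_left (hpt c) (hK.1 x c)
      _ = 2 ^ P * (∑ c, K x c * lpd P f x c ^ P + (∑ c, K x c) * S ^ P) := by
          rw [Finset.sum_mul, ← Finset.sum_add_distrib, Finset.mul_sum]
          refine Finset.sum_congr rfl fun c _ => ?_
          ring
      _ ≤ 2 ^ P * (S ^ P + 1 * S ^ P) := by
          rw [hK.2 x]
          refine mul_le_mul_of_nonneg_left ?_ (by positivity)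
          linarith only [hM]
      _ = 2 ^ (P + 1) * S ^ P := by
          rw [Real.rpow_add_one (by norm_num)]; ring
  have h3 : 0 ≤ ∑ c, K x c * (lpd P f x c ^ P + lpd P f y c ^ P) :=
    Finset.sum_nonneg fun c _ => mul_nonneg (hK.1 x c)
      (add_nonneg (Real.rpow_nonneg (lpd_nonneg f _ _) _)
        (Real.rpow_nonneg (lpd_nonneg f _ _) _))
  refine h1.trans ((Real.rpow_le_rpow h3 h2 hκ0).trans ?_)
  rw [Real.mul_rpow (by positivity) (Real.rpow_nonneg hS _), ← Real.rpow_mul (by norm_num),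
    ← Real.rpow_mul hS]
  have h4 : P * (1 - 2 / P) = P - 2 := by field_simp
  rw [h4]
  refine mul_le_mul_of_nonneg_right ?_ (Real.rpow_nonneg hS _)
  refine Real.rpow_le_rpow_of_exponent_le (by norm_num) ?_
  nlinarith only [hP, hκ1, hκ0]

/-- Lower bound for a partition function by Jensen's inequality over a ball. -/
theorem log_Zf_ge {δ : V → V → ℝ} {b : ℝ} (hP : 0 < P) (x : V) {r : ℝ} (hr : 0 ≤ r) :
    Real.log (nb P f x r) - (∑ y, (open Classical in if lpd P f x y ≤ r then (nb P f x r)⁻¹ else 0) *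
      (b * δ x y)) ≤ Real.log (Zf b δ x) := by
  classical
  haveI : Nonempty V := ⟨x⟩
  have hn := one_le_nb f hP x hr
  have hn0 : 0 < nb P f x r := by linarith only [hn]
  set w : V → ℝ := fun y => if lpd P f x y ≤ r then (nb P f x r)⁻¹ else 0 with hw
  have hw0 : ∀ y, 0 ≤ w y := fun y => by simp only [hw]; split_ifs <;> positivity
  have hw1 : ∑ y, w y = 1 := by
    simp only [hw]
    rw [← Finset.sum_filter, Finset.sum_const, nsmul_eq_mul]
    have : ((Finset.univ.filter fun y => lpd P f x y ≤ r).card : ℝ) = nb P f x r := by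
      unfold nb
      congr!
    rw [this, mul_inv_cancel₀ hn0.ne']
  have h1 := jensen_exp w (fun y => -(b * δ x y)) hw0 hw1
  have h2 : ∑ y, w y * Real.exp (-(b * δ x y)) ≤ (nb P f x r)⁻¹ * Zf b δ x := by
    unfold Zf
    rw [Finset.mul_sum]
    refine Finset.sum_le_sum fun y _ => mul_le_mul_of_nonneg_right ?_ (Real.exp_pos _).le
    simp only [hw]
    split_ifs
    · exact le_rfl
    · positivity
  have h3 : Real.exp (∑ y, w y * -(b * δ x y)) * nb P f x r ≤ Zf b δ x := by
    have := h1.trans h2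
    rw [inv_mul_eq_div, le_div_iff₀ hn0] at this
    exact this
  have h4 := Real.log_le_log (mul_pos (Real.exp_pos _) hn0) h3
  rw [Real.log_mul (Real.exp_pos _).ne' hn0.ne', Real.log_exp] at h4
  have h5 : ∑ y, w y * -(b * δ x y) = -∑ y, w y * (b * δ x y) := by
    rw [← Finset.sum_neg_distrib]
    exact Finset.sum_congr rfl fun y _ => by ring
  rw [h5] at h4
  have h6 : (∑ y, (open Classical in if lpd P f x y ≤ r then (nb P f x r)⁻¹ else 0) *
      (b * δ x y)) = ∑ y, w y * (b * δ x y) := by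
    refine Finset.sum_congr rfl fun y _ => ?_
    simp only [hw]
  rw [h6]
  linarith only [h4]

/-- Upper bound for a partition function: points beyond distance `r` are negligible. -/
theorem log_Zf_le' {δ : V → V → ℝ} {b : ℝ} (hP : 0 < P) (x : V) {r : ℝ} (hr : 0 ≤ r)
    (hδ : ∀ y, 0 ≤ b * δ x y)
    (hfar : ∀ y, r < lpd P f x y → Real.log (Fintype.card V) ≤ b * δ x y) :
    Real.log (Zf b δ x) ≤ 1 + Real.log (nb P f x r) := by
  classical
  haveI : Nonempty V := ⟨x⟩
  have hn := one_le_nb f hP x hr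
  have hn0 : 0 < nb P f x r := by linarith only [hn]
  have hc : (0 : ℝ) < Fintype.card V := by exact_mod_cast Fintype.card_pos
  have h1 : Zf b δ x ≤ 2 * nb P f x r := by
    have h2 : Zf b δ x ≤ ∑ y, ((if lpd P f x y ≤ r then (1 : ℝ) else 0) +
        (Fintype.card V : ℝ)⁻¹) := by
      unfold Zf
      refine Finset.sum_le_sum fun y _ => ?_
      split_ifs with h
      · have : Real.exp (-(b * δ x y)) ≤ 1 := by
          rw [Real.exp_le_one_iff]
          linarith only [hδ y]
        have h3 : 0 ≤ (Fintype.card V : ℝ)⁻¹ := by positivity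
        linarith only [this, h3]
      · have h3 := hfar y (not_le.1 h)
        have : Real.exp (-(b * δ x y)) ≤ (Fintype.card V : ℝ)⁻¹ := by
          rw [Real.exp_neg]
          refine inv_anti₀ hc ?_
          rw [← Real.exp_log hc]
          exact Real.exp_le_exp.2 h3
        linarith only [this]
    have h3 : ∑ y, ((if lpd P f x y ≤ r then (1 : ℝ) else 0) + (Fintype.card V : ℝ)⁻¹) =
        nb P f x r + 1 := by
      rw [Finset.sum_add_distrib, ← Finset.sum_filter, Finset.sum_const, nsmul_eq_mul,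
        Finset.sum_const, nsmul_eq_mul, Finset.card_univ, mul_inv_cancel₀ hc.ne', mul_one]
      congr 1
    rw [h3] at h2
    linarith only [h2, hn]
  have h2 := Real.log_le_log (Zf_pos _ b x) h1
  rw [Real.log_mul (by norm_num) hn0.ne'] at h2
  have h3 : Real.log 2 ≤ 1 := by linarith only [Real.log_two_lt_d9]
  linarith only [h2, h3]

/-- One step of the multi-scale construction with a localised moment bound. -/
theorem local_step [Nonempty V] (hP : 2 < P) {σ R Λ : ℝ} (hσ : 0 < σ) (hR : 1 ≤ R)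
    (hΛ : Λ = 16 * P * 2 ^ (P - 2))
    (hRΛ : 4 ^ (P + 1) * Λ ^ 2 * Real.log (Fintype.card V) ≤ R ^ 2)
    {K : V → V → ℝ} (hK : IsStoch K)
    (hTV : ∀ x x', lpd P f x x' ≤ 2 * σ →
      ∑ y, |K x y - K x' y| ≤ 1 / 16 * (lpd P f x x' / (2 * σ)))
    (hM : ∀ x, ∑ y, K x y * lpd P f x y ^ P ≤ (R * (2 * σ)) ^ P) :
    ∃ K' : V → V → ℝ, IsStoch K' ∧
      (∀ x x', lpd P f x x' ≤ σ → ∑ y, |K' x y - K' x' y| ≤ 1 / 16 * (lpd P f x x' / σ)) ∧
      ∀ x, ∑ y, K' x y * lpd P f x y ^ P ≤ 2 ^ (P - 2) * (16 * (Λ * (R * (2 * σ)) ^ (P / 2 - 1) *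
        (2 * σ)) ^ 2 * (2 + (Real.log (nb P f x (2 * (R * σ))) - Real.log (nb P f x σ)))) := by
  classical
  have hP0 : 0 < P := by linarith only [hP]
  have hlog : 0 ≤ Real.log (Fintype.card V) :=
    Real.log_nonneg (by exact_mod_cast Fintype.card_pos)
  have h2P : 0 < (2 : ℝ) ^ (P - 2) := by positivity
  have hΛ0 : 0 < Λ := by rw [hΛ]; positivity
  set S : ℝ := R * (2 * σ) with hS
  have hS0 : 0 < S := by positivity
  have hSσ : σ ≤ S := by rw [hS]; nlinarith only [hσ, hR, hS0]
  set s : ℝ := Λ * S ^ (P / 2 - 1) * (2 * σ) with hs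
  have hSp : 0 < S ^ (P / 2 - 1) := Real.rpow_pos_of_pos hS0 _
  have hs0 : 0 < s := by positivity
  choose φ hφ using fun c => exists_mazur P hP.le f c
  choose Q hQ hQTV hQM using fun c => gaussian_kernel (φ c) s hs0
  refine ⟨fun x y => ∑ c, K x c * Q c x y, comp_isStoch hK hQ, fun x x' hxx' => ?_, fun x => ?_⟩
  · -- total variation
    refine (comp_tv hK hQ x x').trans ?_
    have h1 := hTV x x' (by linarith only [hσ, hxx'])
    have h2 : ∑ c, K x' c * ∑ y, |Q c x y - Q c x' y| ≤
        1 / 16 * (lpd P f x x' / (2 * σ)) := by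
      have hκ := crude_jensen f hP hK hσ.le hSσ x x' hxx' (hM x')
      calc ∑ c, K x' c * ∑ y, |Q c x y - Q c x' y|
          ≤ ∑ c, K x' c * (2 * ((P / 2) * (lpd P f x c ^ P + lpd P f x' c ^ P) ^
              (1 / 2 - 1 / P) * lpd P f x x') / s) := by
            refine Finset.sum_le_sum fun c _ => mul_le_mul_of_nonneg_left ?_ (hK.1 x' c)
            refine (hQTV c x x').trans ?_
            refine div_le_div_of_nonneg_right ?_ hs0.le
            exact mul_le_mul_of_nonneg_left (hφ c x x').2 (by norm_num)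
        _ = (P * lpd P f x x' / s) * ∑ c, K x' c *
              (lpd P f x c ^ P + lpd P f x' c ^ P) ^ (1 / 2 - 1 / P) := by
            rw [Finset.mul_sum]
            refine Finset.sum_congr rfl fun c _ => ?_
            ring
        _ ≤ (P * lpd P f x x' / s) * (2 ^ (P - 2) * S ^ (P / 2 - 1)) := by
            refine mul_le_mul_of_nonneg_left hκ ?_
            have := lpd_nonneg (P := P) f x x'
            (clear * - hP hσ hR hΛ0 this; positivity)
        _ = 1 / 16 * (lpd P f x x' / (2 * σ)) := by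
            rw [hs, hΛ]
            field_simp
    calc _ ≤ 1 / 16 * (lpd P f x x' / (2 * σ)) + 1 / 16 * (lpd P f x x' / (2 * σ)) :=
          add_le_add h1 h2
      _ = 1 / 16 * (lpd P f x x' / σ) := by field_simp; ring
  · -- moment
    have hs2 : s ^ 2 = Λ ^ 2 * S ^ (P - 2) * (2 * σ) ^ 2 := by
      have h3 : (S ^ (P / 2 - 1)) ^ 2 = S ^ (P - 2) := by
        rw [← Real.rpow_natCast, ← Real.rpow_mul hS0.le]
        congr 1
        push_cast
        ring
      rw [hs, mul_pow, mul_pow, h3]
    have hSP2 : 0 < S ^ (P - 2) := Real.rpow_pos_of_pos hS0 _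
    have hnσ := one_le_nb f hP0 x hσ.le
    have hnσ0 : 0 < nb P f x σ := by linarith only [hnσ]
    -- the upper bound for the partition function
    have hup : ∀ c, Real.log (Zf (1 / (32 * s ^ 2)) (fun x y => ‖φ c x - φ c y‖ ^ 2) x) ≤
        1 + Real.log (nb P f x (2 * (R * σ))) := by
      intro c
      refine log_Zf_le' f hP0 x (by positivity) (fun y => by positivity) fun y hy => ?_
      have h1 := (hφ c x y).1
      have hSy : S ≤ lpd P f x y := by
        rw [hS]
        linarith only [hy]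
      have h2 : S ^ P ≤ lpd P f x y ^ P := Real.rpow_le_rpow hS0.le hSy hP0.le
      have h3 : S ^ P = S ^ (P - 2) * S ^ 2 := by
        rw [← Real.rpow_natCast, ← Real.rpow_add hS0]
        congr 1
        push_cast
        ring
      have h4 : (2 : ℝ) ^ (2 - P) * (S ^ (P - 2) * S ^ 2) ≤ ‖φ c x - φ c y‖ ^ 2 := by
        refine le_trans ?_ h1
        rw [← h3]
        exact mul_le_mul_of_nonneg_left h2 (by positivity)
      have h5 : 1 / (32 * s ^ 2) * ((2 : ℝ) ^ (2 - P) * (S ^ (P - 2) * S ^ 2)) =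
          2 ^ (2 - P) * R ^ 2 / (32 * Λ ^ 2) := by
        rw [hs2, hS]
        have h6 : (R * (2 * σ)) ^ (P - 2) ≠ 0 := by rw [← hS]; exact hSP2.ne'
        field_simp
      have h6 : Real.log (Fintype.card V) ≤ 2 ^ (2 - P) * R ^ 2 / (32 * Λ ^ 2) := by
        rw [le_div_iff₀ (by positivity)]
        have h7 : (2 : ℝ) ^ (2 - P) * (4 ^ (P + 1) * Λ ^ 2 * Real.log (Fintype.card V)) ≤
            2 ^ (2 - P) * R ^ 2 := mul_le_mul_of_nonneg_left hRΛ (by positivity)
        refine le_trans ?_ h7
        have h8 : (2 : ℝ) ^ (2 - P) * 4 ^ (P + 1) = 2 ^ (P + 4) := by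
          have : (4 : ℝ) = 2 ^ (2 : ℝ) := by norm_num
          rw [this, ← Real.rpow_mul (by norm_num), ← Real.rpow_add (by norm_num)]
          congr 1
          ring
        have h9 : (32 : ℝ) ≤ 2 ^ (P + 4) := by
          have : (32 : ℝ) = 2 ^ (5 : ℝ) := by norm_num
          rw [this]
          exact Real.rpow_le_rpow_of_exponent_le (by norm_num) (by linarith only [hP])
        have h10 : 0 ≤ Λ ^ 2 * Real.log (Fintype.card V) := by positivity
        calc Real.log (Fintype.card V) * (32 * Λ ^ 2)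
            = 32 * (Λ ^ 2 * Real.log (Fintype.card V)) := by ring
          _ ≤ 2 ^ (P + 4) * (Λ ^ 2 * Real.log (Fintype.card V)) :=
              mul_le_mul_of_nonneg_right h9 h10
          _ = _ := by rw [← h8]; ring
      calc Real.log (Fintype.card V) ≤ 2 ^ (2 - P) * R ^ 2 / (32 * Λ ^ 2) := h6
        _ = 1 / (32 * s ^ 2) * ((2 : ℝ) ^ (2 - P) * (S ^ (P - 2) * S ^ 2)) := h5.symm
        _ ≤ 1 / (32 * s ^ 2) * ‖φ c x - φ c y‖ ^ 2 :=
            mul_le_mul_of_nonneg_left h4 (by positivity)
    -- the lower bound for the partition function, in the mean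
    set w : V → ℝ := fun y => if lpd P f x y ≤ σ then (nb P f x σ)⁻¹ else 0 with hw
    have hw0 : ∀ y, 0 ≤ w y := fun y => by simp only [hw]; split_ifs <;> positivity
    have hw1 : ∑ y, w y = 1 := by
      simp only [hw]
      rw [← Finset.sum_filter, Finset.sum_const, nsmul_eq_mul]
      have : ((Finset.univ.filter fun y => lpd P f x y ≤ σ).card : ℝ) = nb P f x σ := by
        unfold nb
        congr!
      rw [this, mul_inv_cancel₀ hnσ0.ne']
    have hlow : ∀ c, Real.log (nb P f x σ) -
        (∑ y, w y * (1 / (8 * s ^ 2) * ‖φ c x - φ c y‖ ^ 2)) ≤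
        Real.log (Zf (1 / (8 * s ^ 2)) (fun x y => ‖φ c x - φ c y‖ ^ 2) x) := by
      intro c
      have h1 := log_Zf_ge f (δ := fun x y => ‖φ c x - φ c y‖ ^ 2) (b := 1 / (8 * s ^ 2)) hP0 x
        hσ.le
      have h2 : (∑ y, (open Classical in if lpd P f x y ≤ σ then (nb P f x σ)⁻¹ else 0) *
          (1 / (8 * s ^ 2) * ‖φ c x - φ c y‖ ^ 2)) =
          ∑ y, w y * (1 / (8 * s ^ 2) * ‖φ c x - φ c y‖ ^ 2) := by
        refine Finset.sum_congr rfl fun y _ => ?_
        simp only [hw]
      rw [h2] at h1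
      exact h1
    have hmean : ∑ c, K x c * ∑ y, w y * (1 / (8 * s ^ 2) * ‖φ c x - φ c y‖ ^ 2) ≤ 1 := by
      have h1 : ∑ c, K x c * ∑ y, w y * (1 / (8 * s ^ 2) * ‖φ c x - φ c y‖ ^ 2) =
          ∑ y, w y * ∑ c, K x c * (1 / (8 * s ^ 2) * ‖φ c x - φ c y‖ ^ 2) := by
        simp only [Finset.mul_sum]
        rw [Finset.sum_comm]
        refine Finset.sum_congr rfl fun y _ => Finset.sum_congr rfl fun c _ => ?_
        ring
      rw [h1]
      have h2 : ∀ y, w y * ∑ c, K x c * (1 / (8 * s ^ 2) * ‖φ c x - φ c y‖ ^ 2) ≤ w y * 1 := by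
        intro y
        by_cases hy : lpd P f x y ≤ σ
        · refine mul_le_mul_of_nonneg_left ?_ (hw0 y)
          have hj := jensen2 f hP hK hσ.le hSσ x y hy (hM x)
          have h3 : ∀ c, ‖φ c x - φ c y‖ ^ 2 ≤ (P / 2) ^ 2 * σ ^ 2 *
              (lpd P f x c ^ P + lpd P f y c ^ P) ^ (1 - 2 / P) := by
            intro c
            have h4 := (hφ c x y).2
            have hA0 : 0 ≤ lpd P f x c ^ P + lpd P f y c ^ P :=
              add_nonneg (Real.rpow_nonneg (lpd_nonneg f _ _) _)
                (Real.rpow_nonneg (lpd_nonneg f _ _) _)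
            have h5 := pow_le_pow_left₀ (norm_nonneg _) h4 2
            refine h5.trans ?_
            have e2 : ((lpd P f x c ^ P + lpd P f y c ^ P) ^ (1 / 2 - 1 / P)) ^ 2 =
                (lpd P f x c ^ P + lpd P f y c ^ P) ^ (1 - 2 / P) := by
              rw [← Real.rpow_natCast, ← Real.rpow_mul hA0]
              congr 1; push_cast; ring
            rw [mul_pow, mul_pow, e2]
            have h6 : lpd P f x y ^ 2 ≤ σ ^ 2 := pow_le_pow_left₀ (lpd_nonneg f x y) hy 2
            have h7 : 0 ≤ (P / 2) ^ 2 * (lpd P f x c ^ P + lpd P f y c ^ P) ^ (1 - 2 / P) :=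
              mul_nonneg (by positivity) (Real.rpow_nonneg hA0 _)
            calc (P / 2) ^ 2 * (lpd P f x c ^ P + lpd P f y c ^ P) ^ (1 - 2 / P) *
                  lpd P f x y ^ 2 ≤ (P / 2) ^ 2 *
                  (lpd P f x c ^ P + lpd P f y c ^ P) ^ (1 - 2 / P) * σ ^ 2 :=
                  mul_le_mul_of_nonneg_left h6 h7
              _ = _ := by ring
          calc ∑ c, K x c * (1 / (8 * s ^ 2) * ‖φ c x - φ c y‖ ^ 2)
              ≤ ∑ c, K x c * (1 / (8 * s ^ 2) * ((P / 2) ^ 2 * σ ^ 2 *
                (lpd P f x c ^ P + lpd P f y c ^ P) ^ (1 - 2 / P))) := by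
                refine Finset.sum_le_sum fun c _ => mul_le_mul_of_nonneg_left ?_ (hK.1 x c)
                exact mul_le_mul_of_nonneg_left (h3 c) (by positivity)
            _ = (1 / (8 * s ^ 2) * ((P / 2) ^ 2 * σ ^ 2)) *
                ∑ c, K x c * (lpd P f x c ^ P + lpd P f y c ^ P) ^ (1 - 2 / P) := by
                rw [Finset.mul_sum]
                refine Finset.sum_congr rfl fun c _ => ?_
                ring
            _ ≤ (1 / (8 * s ^ 2) * ((P / 2) ^ 2 * σ ^ 2)) * (2 ^ (P + 1) * S ^ (P - 2)) :=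
                mul_le_mul_of_nonneg_left hj (by positivity)
            _ = P ^ 2 * 2 ^ (P + 1) / (128 * Λ ^ 2) := by
                rw [hs2]
                field_simp
                ring
            _ ≤ 1 := by
                rw [div_le_one (by positivity), hΛ]
                have h8 : (2 : ℝ) ^ (P + 1) ≤ 8 * (2 ^ (P - 2)) ^ 2 := by
                  have h9 : (2 : ℝ) ^ (P + 1) = 8 * 2 ^ (P - 2) := by
                    have : (8 : ℝ) = 2 ^ (3 : ℝ) := by norm_num
                    rw [this, ← Real.rpow_add (by norm_num)]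
                    congr 1
                    ring
                  have h10 : (1 : ℝ) ≤ 2 ^ (P - 2) :=
                    Real.one_le_rpow (by norm_num) (by linarith only [hP])
                  rw [h9]
                  nlinarith only [h10]
                have h11 : 0 ≤ (2 : ℝ) ^ (P - 2) ^ 2 := by positivity
                have h12 : 0 ≤ P ^ 2 := by positivity
                calc P ^ 2 * 2 ^ (P + 1) ≤ P ^ 2 * (8 * (2 ^ (P - 2)) ^ 2) :=
                      mul_le_mul_of_nonneg_left h8 h12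
                  _ ≤ 128 * (16 * P * 2 ^ (P - 2)) ^ 2 := by
                      have h13 : 0 ≤ P ^ 2 * (2 ^ (P - 2)) ^ 2 := by positivity
                      nlinarith only [h13]
        · have : w y = 0 := by simp only [hw]; rw [if_neg hy]
          rw [this, zero_mul, zero_mul]
      refine (Finset.sum_le_sum fun y _ => h2 y).trans ?_
      rw [← Finset.sum_mul, hw1, one_mul]
    have h1 : ∀ c, ∑ y, Q c x y * lpd P f x y ^ P ≤
        2 ^ (P - 2) * (16 * s ^ 2 * (1 + Real.log (nb P f x (2 * (R * σ))) -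
          Real.log (nb P f x σ) + ∑ y, w y * (1 / (8 * s ^ 2) * ‖φ c x - φ c y‖ ^ 2))) := by
      intro c
      calc ∑ y, Q c x y * lpd P f x y ^ P
          ≤ ∑ y, Q c x y * (2 ^ (P - 2) * ‖φ c x - φ c y‖ ^ 2) := by
            refine Finset.sum_le_sum fun y _ => mul_le_mul_of_nonneg_left ?_ ((hQ c).1 x y)
            have h2 := (hφ c x y).1
            have h3 : (2 : ℝ) ^ (P - 2) * 2 ^ (2 - P) = 1 := by
              rw [← Real.rpow_add (by norm_num)]; simp
            calc lpd P f x y ^ P = 2 ^ (P - 2) * (2 ^ (2 - P) * lpd P f x y ^ P) := by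
                  rw [← mul_assoc, h3, one_mul]
              _ ≤ _ := mul_le_mul_of_nonneg_left h2 h2P.le
        _ = 2 ^ (P - 2) * ∑ y, Q c x y * ‖φ c x - φ c y‖ ^ 2 := by
            rw [Finset.mul_sum]
            refine Finset.sum_congr rfl fun y _ => ?_
            ring
        _ ≤ _ := by
            refine mul_le_mul_of_nonneg_left ((hQM c x).trans ?_) h2P.le
            refine mul_le_mul_of_nonneg_left ?_ (by positivity)
            have h4 := hup c
            have h5 := hlow c
            linarith only [h4, h5]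
    calc ∑ y, (∑ c, K x c * Q c x y) * lpd P f x y ^ P
        = ∑ c, K x c * ∑ y, Q c x y * lpd P f x y ^ P := by
          simp only [Finset.sum_mul, Finset.mul_sum]
          rw [Finset.sum_comm]
          refine Finset.sum_congr rfl fun c _ => Finset.sum_congr rfl fun y _ => ?_
          ring
      _ ≤ ∑ c, K x c * (2 ^ (P - 2) * (16 * s ^ 2 * (1 + Real.log (nb P f x (2 * (R * σ))) -
          Real.log (nb P f x σ) + ∑ y, w y * (1 / (8 * s ^ 2) * ‖φ c x - φ c y‖ ^ 2)))) :=
          Finset.sum_le_sum fun c _ => mul_le_mul_of_nonneg_left (h1 c) (hK.1 x c)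
      _ = 2 ^ (P - 2) * (16 * s ^ 2 * ((∑ c, K x c) * (1 + Real.log (nb P f x (2 * (R * σ))) -
          Real.log (nb P f x σ)) +
            ∑ c, K x c * ∑ y, w y * (1 / (8 * s ^ 2) * ‖φ c x - φ c y‖ ^ 2))) := by
          rw [Finset.sum_mul, ← Finset.sum_add_distrib, Finset.mul_sum, Finset.mul_sum]
          refine Finset.sum_congr rfl fun c _ => ?_
          ring
      _ ≤ _ := by
          rw [hK.2]
          refine mul_le_mul_of_nonneg_left ?_ h2P.le
          refine mul_le_mul_of_nonneg_left ?_ (by positivity)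
          linarith only [hmean]

end

end Vale.Agent.P249.H560
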