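import Vale.Agent.P249.H560.Uniform

/-!
# P249: assembly
-/

set_option linter.all false

open MeasureTheory Filter Asymptotics
open scoped ENNReal BigOperators

namespace Vale.Agent.P249.H560

open Vale.Agent.P249

theorem one_lt_toReal {p : ℝ≥0∞} (hp1 : 1 < p) (hp : p ≠ ∞) : 1 < p.toReal := by
  have := (ENNReal.toReal_lt_toReal (by norm_num) hp).2 hp1
  simpa using this

/-- `d_p(n, 1 + ε) ≤ exp (C (log n) ^ θ / ε)` for all `θ > max (1 / p) (1 / 2)`, uniformly in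
`0 < ε ≤ 1`. -/
theorem uniform (p : ℝ≥0∞) [Fact (1 ≤ p)] (hp1 : 1 < p) (hp : p ≠ ∞) (θ : ℝ)
    (hθ : max (1 / p.toReal) (1 / 2) < θ) :
    ∃ C : ℝ, 0 < C ∧ ∀ n : ℕ, 2 ≤ n → ∀ ε : ℝ, 0 < ε → ε ≤ 1 →
      Admissible p n (1 + ε) (dimLp p n (1 + ε)) ∧
        (dimLp p n (1 + ε) : ℝ) ≤ Real.exp (C * Real.log n ^ θ / ε) := by
  have hlt := exponent_lt_one' (one_lt_toReal hp1 hp)
  obtain ⟨θ₀, h1, h2⟩ := exists_between (lt_min hθ hlt)
  have h3 : θ₀ < θ := lt_of_lt_of_le h2 (min_le_left _ _)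
  have h4 : θ₀ < 1 := lt_of_lt_of_le h2 (min_le_right _ _)
  have h0 : 0 < θ₀ := lt_trans (lt_of_lt_of_le (by norm_num) (le_max_right _ _)) h1
  obtain ⟨C, hC, H⟩ := uniform_of p hp θ₀ θ h0 h3 (near_halving' p hp1 hp θ₀ h1 h4.le)
  refine ⟨C, hC, fun n hn ε hε0 hε1 => ?_⟩
  obtain ⟨d, hd, hdn⟩ := H n hn ε hε0 hε1
  exact ⟨hd.dimLp_mem, le_trans (by exact_mod_cast hd.dimLp_le) hdn⟩

theorem dimLp_anti {p : ℝ≥0∞} [Fact (1 ≤ p)] {n : ℕ} {D D' : ℝ}
    (h : Admissible p n D (dimLp p n D)) (hDD : D ≤ D') : dimLp p n D' ≤ dimLp p n D := by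
  refine Nat.sInf_le ?_
  intro Ω _ μ X hX
  obtain ⟨f, s, hs, hf⟩ := h Ω μ X hX
  exact ⟨f, s, hs, fun x hx y hy => ⟨(hf x hx y hy).1, (hf x hx y hy).2.trans
    (mul_le_mul_of_nonneg_right (mul_le_mul_of_nonneg_right hDD hs.le) (norm_nonneg _))⟩⟩

/-- `d_p(n, D_n) = n ^ o(1)` as long as `D_n ≥ 1 + (log n) ^ (-a)` with
`a < 1 - max (1 / p) (1 / 2)`. -/
theorem subpoly_seq (p : ℝ≥0∞) [Fact (1 ≤ p)] (hp1 : 1 < p) (hp : p ≠ ∞) (a : ℝ)
    (ha : a < 1 - max (1 / p.toReal) (1 / 2)) (D : ℕ → ℝ)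
    (hD : ∀ᶠ n : ℕ in atTop, 1 + Real.log n ^ (-a) ≤ D n) (κ : ℝ) (hκ : 0 < κ) :
    (fun n : ℕ => (dimLp p n (D n) : ℝ)) =o[atTop] (fun n : ℕ => (n : ℝ) ^ κ) := by
  have hlt := exponent_lt_one' (one_lt_toReal hp1 hp)
  set b : ℝ := max a 0 with hb
  have hb0 : 0 ≤ b := le_max_right _ _
  have hba : a ≤ b := le_max_left _ _
  have hb1 : b < 1 - max (1 / p.toReal) (1 / 2) := by
    rw [hb]
    exact max_lt ha (by linarith only [hlt])
  obtain ⟨θ, h1, h2⟩ := exists_between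
    (show max (1 / p.toReal) (1 / 2) < 1 - b by linarith only [hb1])
  obtain ⟨C, hC, H⟩ := uniform p hp1 hp θ h1
  obtain ⟨n0, hn0⟩ := eventually_atTop.1 hD
  set u : ℕ → ℝ := fun n => if n < max 3 n0 then 0 else (dimLp p n (D n) : ℝ) with hu
  have hθb : θ + b < 1 := by linarith only [h2]
  have hu0 : ∀ n, 0 ≤ u n := fun n => by
    simp only [hu]
    split_ifs
    · exact le_rfl
    · exact Nat.cast_nonneg _
  have hmain : u =o[atTop] (fun n : ℕ => (n : ℝ) ^ κ) := by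
    refine isLittleO_rpow_of_subpoly (C := C) hθb hu0 (fun n hn => ?_) hκ
    simp only [hu]
    split_ifs with h
    · exact (Real.exp_pos _).le
    · rw [not_lt, max_le_iff] at h
      obtain ⟨h3, h4⟩ := h
      have hn3 : (3 : ℝ) ≤ n := by exact_mod_cast h3
      have hl1 : 1 ≤ Real.log n := by
        rw [← Real.log_exp 1]
        refine Real.log_le_log (Real.exp_pos _) ?_
        linarith only [Real.exp_one_lt_d9, hn3]
      have hl0 : 0 < Real.log n := by linarith only [hl1]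
      set ε : ℝ := Real.log n ^ (-b) with hε
      have hε0 : 0 < ε := Real.rpow_pos_of_pos hl0 _
      have hε1 : ε ≤ 1 := by
        rw [hε]
        exact Real.rpow_le_one_of_one_le_of_nonpos hl1 (by linarith only [hb0])
      have hεa : ε ≤ Real.log n ^ (-a) :=
        Real.rpow_le_rpow_of_exponent_le hl1 (by linarith only [hba])
      obtain ⟨h5, h6⟩ := H n (by omega) ε hε0 hε1
      have h7 : 1 + ε ≤ D n := by
        have := hn0 n h4
        linarith only [this, hεa]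
      have h8 : (dimLp p n (D n) : ℝ) ≤ dimLp p n (1 + ε) := by
        exact_mod_cast dimLp_anti h5 h7
      refine h8.trans (h6.trans (le_of_eq ?_))
      congr 1
      rw [hε, Real.rpow_neg hl0.le, Real.rpow_add hl0]
      field_simp
  refine hmain.congr' ?_ EventuallyEq.rfl
  filter_upwards [eventually_ge_atTop (max 3 n0)] with n hn
  simp only [hu]
  rw [if_neg (not_lt.2 hn)]

/-- In particular `d_p(n, D) = o(n ^ κ)` for every fixed `D > 1`. -/
theorem subpoly_fixed (p : ℝ≥0∞) [Fact (1 ≤ p)] (hp1 : 1 < p) (hp : p ≠ ∞) (D : ℝ) (hD : 1 < D)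
    (κ : ℝ) (hκ : 0 < κ) :
    (fun n : ℕ => (dimLp p n D : ℝ)) =o[atTop] (fun n : ℕ => (n : ℝ) ^ κ) := by
  have hlt := exponent_lt_one' (one_lt_toReal hp1 hp)
  obtain ⟨a, ha0, ha1⟩ := exists_between
    (show (0 : ℝ) < 1 - max (1 / p.toReal) (1 / 2) by linarith only [hlt])
  refine subpoly_seq p hp1 hp a ha1 (fun _ => D) ?_ κ hκ
  have hlog : Tendsto (fun n : ℕ => Real.log n) atTop atTop :=
    Real.tendsto_log_atTop.comp tendsto_natCast_atTop_atTop
  have h1 : Tendsto (fun n : ℕ => Real.log n ^ (-a)) atTop (nhds 0) :=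
    (tendsto_rpow_neg_atTop ha0).comp hlog
  filter_upwards [h1.eventually_lt_const (show (0 : ℝ) < D - 1 by linarith only [hD])] with n hn
  linarith only [hn]

end Vale.Agent.P249.H560
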