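import Vale.Agent.P249.H560.Local

/-!
# P249: kernels at all scales for `P > 2` with the moment sum `(log n) ^ (P / 2 + ε)`
-/

set_option linter.all false

open scoped ENNReal BigOperators

namespace Vale.Agent.P249.H560

open Vale.Agent.P249

section scale

variable {V : Type*} [Fintype V] {ρ : V → V → ℝ} [Nonempty V]

/-- One scale of the mixture, with a bound for the moment of the crude kernel that may depend on
the point. -/
theorem gibbs_mix_scale' {P : ℝ} {C0 : ℝ} (hC1 : 1 ≤ C0)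
    (hC : ∀ t : ℝ, 0 ≤ t → t ^ P ≤ C0 * (Real.exp (t / 32) - 1)) (h0 : ∀ x, ρ x x = 0)
    (hs : ∀ x y, ρ x y = ρ y x) (ht : ∀ x y z, ρ x z ≤ ρ x y + ρ y z) {B : V → ℝ}
    (hB : ∀ x, 0 ≤ B x)
    {σ : ℝ} (hσ : 0 < σ) {K' : V → V → ℝ} (hK' : IsStoch K')
    (hTV : ∀ x x', ρ x x' ≤ σ → ∑ y, |K' x y - K' x' y| ≤ 1 / 16)
    (hM : ∀ x, ∑ y, K' x y * (ρ x y / σ) ^ P ≤ B x) :
    ∃ K : V → V → ℝ, IsStoch K ∧ (∀ x x', ρ x x' ≤ σ → ∑ y, |K x y - K x' y| ≤ 1 / 2) ∧
      ∀ x, ∑ y, K x y * (ρ x y / σ) ^ P ≤ 4 * C0 *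
        (Real.log (Zf (1 / (16 * σ) / 2) ρ x) - Real.log (Zf (1 / (16 * σ)) ρ x)) +
        B x * min 1 (Real.log (Zf (1 / (16 * σ) / 2) ρ x) - Real.log (Zf (1 / (16 * σ)) ρ x)) := by
  have hρ : ∀ x y, 0 ≤ ρ x y := by
    intro x y
    have h1 := ht x y x
    rw [h0, hs y x] at h1
    linarith only [h1]
  set b : ℝ := 1 / (16 * σ) with hb
  have hb0 : 0 < b := by positivity
  set u : V → ℝ := fun x => Real.log (Zf (b / 2) ρ x) - Real.log (Zf b ρ x) with hu
  have hu0 : ∀ x, 0 ≤ u x := by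
    intro x
    have := Real.log_le_log (Zf_pos ρ b x) (Zf_anti ρ (by linarith only [hb0] : b / 2 ≤ b) x (hρ x))
    simp only [hu]
    linarith only [this]
  set κ : V → ℝ := fun x => max 0 (min 1 (2 - u x)) with hκ
  have hκ0 : ∀ x, 0 ≤ κ x := fun x => le_max_left _ _
  have hκ1 : ∀ x, κ x ≤ 1 := fun x => max_le zero_le_one (min_le_left _ _)
  have hκu : ∀ x x', |κ x - κ x'| ≤ |u x - u x'| := by
    intro x x'
    have h1 : |κ x - κ x'| ≤ |min 1 (2 - u x) - min 1 (2 - u x')| := by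
      simp only [hκ]
      rw [max_comm 0, max_comm 0]
      exact abs_max_sub_max_le_abs _ _ _
    have h2 : |min 1 (2 - u x) - min 1 (2 - u x')| ≤ |(2 - u x) - (2 - u x')| := by
      refine (abs_min_sub_min_le_max _ _ _ _).trans ?_
      rw [sub_self, abs_zero]
      exact max_le (abs_nonneg _) le_rfl
    have h3 : (2 - u x) - (2 - u x') = -(u x - u x') := by ring
    rw [h3, abs_neg] at h2
    exact h1.trans h2
  have huLip : ∀ x x', ρ x x' ≤ σ → |u x - u x'| ≤ 3 / 32 := by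
    intro x x' hr
    have hbr : b * ρ x x' ≤ 1 / 16 := by
      calc b * ρ x x' ≤ b * σ := mul_le_mul_of_nonneg_left hr hb0.le
        _ = 1 / 16 := by rw [hb]; field_simp
    have e1 := log_Zf_le hs ht hb0.le x x'
    have e2 := log_Zf_le hs ht hb0.le x' x
    have e3 := log_Zf_le hs ht (by linarith only [hb0] : 0 ≤ b / 2) x x'
    have e4 := log_Zf_le hs ht (by linarith only [hb0] : 0 ≤ b / 2) x' x
    rw [hs x' x] at e2 e4
    have e5 : b / 2 * ρ x x' ≤ 1 / 32 := by
      have : b / 2 * ρ x x' = b * ρ x x' / 2 := by ring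
      rw [this]
      linarith only [hbr]
    simp only [hu]
    rw [abs_le]
    constructor <;> linarith only [hbr, e1, e4, e2, e3]
  have hK'0 := hK'.1
  have hK's := hK'.2
  have hA0 := (gbk_stoch ρ b).1
  have hAs := (gbk_stoch ρ b).2
  refine ⟨fun x y => κ x * gbk ρ b x y + (1 - κ x) * K' x y, ⟨fun x y => ?_, fun x => ?_⟩,
    fun x x' hr => ?_, fun x => ?_⟩
  · exact add_nonneg (mul_nonneg (hκ0 x) (hA0 x y))
      (mul_nonneg (sub_nonneg.2 (hκ1 x)) (hK'0 x y))
  · rw [Finset.sum_add_distrib, ← Finset.mul_sum, ← Finset.mul_sum, hAs, hK's]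
    ring
  · have hbr : b * ρ x x' ≤ 1 / 16 := by
      calc b * ρ x x' ≤ b * σ := mul_le_mul_of_nonneg_left hr hb0.le
        _ = 1 / 16 := by rw [hb]; field_simp
    have t1 := gbk_tv hs ht hb0.le x x' hbr
    have t2 := hTV x x' hr
    have t3 := (hκu x x').trans (huLip x x' hr)
    have h1 : ∀ y, |κ x * gbk ρ b x y + (1 - κ x) * K' x y -
        (κ x' * gbk ρ b x' y + (1 - κ x') * K' x' y)| ≤
        κ x * |gbk ρ b x y - gbk ρ b x' y| + (1 - κ x) * |K' x y - K' x' y| +
          |κ x - κ x'| * (gbk ρ b x' y + K' x' y) := by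
      intro y
      have e1 : κ x * gbk ρ b x y + (1 - κ x) * K' x y -
        (κ x' * gbk ρ b x' y + (1 - κ x') * K' x' y) =
        κ x * (gbk ρ b x y - gbk ρ b x' y) + (1 - κ x) * (K' x y - K' x' y) +
          (κ x - κ x') * (gbk ρ b x' y - K' x' y) := by ring
      rw [e1]
      refine (abs_add_le _ _).trans (add_le_add ((abs_add_le _ _).trans (add_le_add ?_ ?_)) ?_)
      · rw [abs_mul, abs_of_nonneg (hκ0 x)]
      · rw [abs_mul, abs_of_nonneg (sub_nonneg.2 (hκ1 x))]
      · rw [abs_mul]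
        refine mul_le_mul_of_nonneg_left ?_ (abs_nonneg _)
        refine (abs_sub _ _).trans ?_
        rw [abs_of_nonneg (hA0 x' y), abs_of_nonneg (hK'0 x' y)]
    calc _ ≤ ∑ y, (κ x * |gbk ρ b x y - gbk ρ b x' y| + (1 - κ x) * |K' x y - K' x' y| +
          |κ x - κ x'| * (gbk ρ b x' y + K' x' y)) := Finset.sum_le_sum fun y _ => h1 y
      _ = κ x * ∑ y, |gbk ρ b x y - gbk ρ b x' y| + (1 - κ x) * ∑ y, |K' x y - K' x' y| +
          |κ x - κ x'| * 2 := by
          rw [Finset.sum_add_distrib, Finset.sum_add_distrib, ← Finset.mul_sum,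
            ← Finset.mul_sum, ← Finset.mul_sum, Finset.sum_add_distrib, hAs, hK's]
          norm_num
      _ ≤ κ x * (1 / 7) + (1 - κ x) * (1 / 16) + 3 / 32 * 2 := by
          have a1 := mul_le_mul_of_nonneg_left t1 (hκ0 x)
          have a2 := mul_le_mul_of_nonneg_left t2 (sub_nonneg.2 (hκ1 x))
          linarith
      _ ≤ 1 / 2 := by
          have := hκ0 x
          have := hκ1 x
          nlinarith only [this]
  · have hnn : ∀ y, 0 ≤ ρ x y / σ := fun y => div_nonneg (hρ x y) hσ.le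
    have m1 : ∑ y, gbk ρ b x y * (ρ x y / σ) ^ P ≤ C0 * (Real.exp (u x) - 1) := by
      have e1 := gbk_moment (ρ := ρ) b x
      have e2 : ∑ y, gbk ρ b x y * (ρ x y / σ) ^ P ≤
          ∑ y, C0 * (gbk ρ b x y * (Real.exp (b / 2 * ρ x y) - 1)) := by
        refine Finset.sum_le_sum fun y _ => ?_
        have e3 := hC (ρ x y / σ) (hnn y)
        have e4 : ρ x y / σ / 32 = b / 2 * ρ x y := by
          rw [hb]
          field_simp
          ring
        rw [e4] at e3
        calc gbk ρ b x y * (ρ x y / σ) ^ P ≤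
            gbk ρ b x y * (C0 * (Real.exp (b / 2 * ρ x y) - 1)) :=
              mul_le_mul_of_nonneg_left e3 (hA0 x y)
          _ = _ := by ring
      rw [← Finset.mul_sum, e1] at e2
      exact e2
    have m2 := hM x
    have hsplit : ∑ y, (κ x * gbk ρ b x y + (1 - κ x) * K' x y) * (ρ x y / σ) ^ P =
        κ x * ∑ y, gbk ρ b x y * (ρ x y / σ) ^ P + (1 - κ x) * ∑ y, K' x y * (ρ x y / σ) ^ P := by
      rw [Finset.mul_sum, Finset.mul_sum, ← Finset.sum_add_distrib]
      refine Finset.sum_congr rfl fun y _ => by ring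
    have hux : u x = Real.log (Zf (b / 2) ρ x) - Real.log (Zf b ρ x) := rfl
    change ∑ y, (κ x * gbk ρ b x y + (1 - κ x) * K' x y) * (ρ x y / σ) ^ P ≤ _
    rw [← hux, hsplit]
    have hu0x := hu0 x
    have hk0 := hκ0 x
    have hk1 := hκ1 x
    have p1 : κ x * ∑ y, gbk ρ b x y * (ρ x y / σ) ^ P ≤ 4 * C0 * u x := by
      rcases le_total (u x) 2 with h | h
      · have q1 := exp_sub_one_le_four_mul hu0x h
        have q2 : 0 ≤ Real.exp (u x) - 1 := by
          have := Real.add_one_le_exp (u x)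
          linarith only [hu0x, this]
        calc κ x * ∑ y, gbk ρ b x y * (ρ x y / σ) ^ P ≤ κ x * (C0 * (Real.exp (u x) - 1)) :=
              mul_le_mul_of_nonneg_left m1 hk0
          _ ≤ 1 * (C0 * (Real.exp (u x) - 1)) :=
              mul_le_mul_of_nonneg_right hk1 (mul_nonneg (by linarith only [hC1]) q2)
          _ ≤ 1 * (C0 * (4 * u x)) := by
              rw [one_mul, one_mul]
              exact mul_le_mul_of_nonneg_left q1 (by linarith only [hC1])
          _ = 4 * C0 * u x := by ring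
      · have hk : κ x = 0 := by
          simp only [hκ]
          rw [min_eq_right (by linarith only [h])]
          exact max_eq_left (by linarith only [h])
        rw [hk, zero_mul]
        exact mul_nonneg (by linarith only [hC1]) hu0x
    have p2 : (1 - κ x) * ∑ y, K' x y * (ρ x y / σ) ^ P ≤ B x * min 1 (u x) := by
      have q1 : 1 - κ x ≤ min 1 (u x) := by
        refine le_min (by linarith only [hk0]) ?_
        rcases le_total (u x) 1 with h | h
        · have hk : κ x = 1 := by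
            simp only [hκ]
            rw [min_eq_left (by linarith only [h])]
            exact max_eq_right zero_le_one
          rw [hk]
          linarith only [hu0x]
        · linarith only [hk0, h]
      calc (1 - κ x) * ∑ y, K' x y * (ρ x y / σ) ^ P ≤ (1 - κ x) * B x :=
            mul_le_mul_of_nonneg_left m2 (by linarith only [hk1])
        _ ≤ min 1 (u x) * B x := mul_le_mul_of_nonneg_right q1 (hB x)
        _ = B x * min 1 (u x) := mul_comm _ _
    exact add_le_add p1 p2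

end scale

section

variable {P : ℝ} {V : Type*} [Fintype V] [Nonempty V] {N : ℕ}

/-- The crude kernel at scale `σ` with a localised bound for the moments. -/
theorem local_kernel (f : V → Fin N → ℝ) (hP : 2 < P) {R Λ : ℝ} (hR : 1 ≤ R)
    (hΛ : Λ = 16 * P * 2 ^ (P - 2))
    (hRΛ : 4 ^ (P + 1) * Λ ^ 2 * Real.log (Fintype.card V) ≤ R ^ 2) (σ : ℝ) (hσ : 0 < σ) :
    ∃ K : V → V → ℝ, IsStoch K ∧
      (∀ x x', lpd P f x x' ≤ σ → ∑ y, |K x y - K x' y| ≤ 1 / 16) ∧
      ∀ x, ∑ y, K x y * (lpd P f x y / σ) ^ P ≤ 64 * 4 ^ (P - 2) * Λ ^ 2 * R ^ (P - 2) *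
        (2 + (Real.log (nb P f x (2 * (R * σ))) - Real.log (nb P f x σ))) := by
  have hP0 : 0 < P := by linarith only [hP]
  -- the diameter
  obtain ⟨k, hk⟩ : ∃ k : ℕ, ∀ x y, lpd P f x y ≤ 2 ^ k * (2 * σ) := by
    obtain ⟨k, hk⟩ := pow_unbounded_of_one_lt ((∑ x, ∑ y, lpd P f x y) / (2 * σ))
      (one_lt_two : (1 : ℝ) < 2)
    refine ⟨k, fun x y => ?_⟩
    rw [div_lt_iff₀ (by positivity)] at hk
    have h1 : lpd P f x y ≤ ∑ y, lpd P f x y :=
      Finset.single_le_sum (f := fun y => lpd P f x y) (fun y _ => lpd_nonneg f x y)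
        (Finset.mem_univ y)
    have h2 : ∑ y, lpd P f x y ≤ ∑ x, ∑ y, lpd P f x y :=
      Finset.single_le_sum (f := fun x => ∑ y, lpd P f x y)
        (fun x _ => Finset.sum_nonneg fun y _ => lpd_nonneg f x y) (Finset.mem_univ x)
    linarith only [hk, h1, h2]
  obtain ⟨K, hK, hTV, hM⟩ := crude_kernel_aux f hP hR hΛ hRΛ k (2 * σ) (by positivity) hk
  obtain ⟨K', hK', hTV', hM'⟩ := local_step f hP hσ hR hΛ hRΛ hK hTV hM
  refine ⟨K', hK', fun x x' h => (hTV' x x' h).trans ?_, fun x => ?_⟩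
  · have : lpd P f x x' / σ ≤ 1 := by rw [div_le_one hσ]; exact h
    linarith only [this]
  · have h1 : ∑ y, K' x y * (lpd P f x y / σ) ^ P =
        (∑ y, K' x y * lpd P f x y ^ P) / σ ^ P := by
      rw [Finset.sum_div]
      refine Finset.sum_congr rfl fun y _ => ?_
      rw [Real.div_rpow (lpd_nonneg f x y) hσ.le, mul_div_assoc]
    rw [h1, div_le_iff₀ (Real.rpow_pos_of_pos hσ _)]
    refine (hM' x).trans (le_of_eq ?_)
    have hR0 : 0 < R := by linarith only [hR]
    have e1 : ((R * (2 * σ)) ^ (P / 2 - 1)) ^ 2 = 2 ^ (P - 2) * R ^ (P - 2) * σ ^ (P - 2) := by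
      rw [← Real.rpow_natCast, ← Real.rpow_mul (by positivity),
        Real.mul_rpow hR0.le (by positivity), Real.mul_rpow (by norm_num) hσ.le]
      have : (P / 2 - 1) * ((2 : ℕ) : ℝ) = P - 2 := by push_cast; ring
      rw [this]
      ring
    have e2 : σ ^ P = σ ^ (P - 2) * σ ^ 2 := by
      rw [← Real.rpow_natCast, ← Real.rpow_add hσ]
      congr 1
      push_cast
      ring
    have e3 : (4 : ℝ) ^ (P - 2) = 2 ^ (P - 2) * 2 ^ (P - 2) := by
      rw [← Real.mul_rpow (by norm_num) (by norm_num)]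
      norm_num
    rw [mul_pow, mul_pow, e1, e2, e3]
    ring

/-- `Σ_j (log N(2 ^ (j + k)) - log N (2 ^ j)) ≤ k log n`. -/
theorem sum_nb_le (f : V → Fin N → ℝ) (hP : 0 < P) (x : V) (k : ℕ) (J : Finset ℤ) :
    ∑ j ∈ J, (Real.log (nb P f x ((2 : ℝ) ^ (j + (k : ℤ)))) - Real.log (nb P f x ((2 : ℝ) ^ j))) ≤
      k * Real.log (Fintype.card V) := by
  have hpow : ∀ j : ℤ, (0 : ℝ) < 2 ^ j := fun j => zpow_pos (by norm_num) j
  refine sum_telescope_le (fun j => Real.log (nb P f x ((2 : ℝ) ^ j))) ?_ _ ?_ ?_ k J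
  · intro i j hij
    have h1 := one_le_nb f hP x (hpow i).le
    exact Real.log_le_log (by linarith only [h1])
      (nb_mono f x (zpow_le_zpow_right₀ (by norm_num) hij))
  · intro j
    exact Real.log_nonneg (one_le_nb f hP x (hpow j).le)
  · intro j
    have h1 := one_le_nb f hP x (hpow j).le
    exact Real.log_le_log (by linarith only [h1]) (nb_le_card f x _)

/-- Kernels at all scales with an explicit moment bound. -/
theorem kernels_sum (hP : 2 < P) : ∃ A : ℝ, 0 < A ∧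
    ∀ {V : Type*} [Fintype V] [Nonempty V] {N : ℕ} (f : V → Fin N → ℝ) (R : ℝ), 1 ≤ R →
      4 ^ (P + 1) * (16 * P * 2 ^ (P - 2)) ^ 2 * Real.log (Fintype.card V) ≤ R ^ 2 →
      ∀ k : ℕ, 2 * R ≤ 2 ^ k →
      HasKernels P (lpd P f) (A * R ^ (P - 2) * (k + 3) * Real.log (Fintype.card V)) := by
  obtain ⟨C0, hC1, hC⟩ := exists_rpow_le_exp P (by linarith only [hP])
  obtain ⟨Λ, hΛ⟩ : ∃ Λ : ℝ, Λ = 16 * P * 2 ^ (P - 2) := ⟨_, rfl⟩
  have hΛ0 : 0 < Λ := by rw [hΛ]; positivity
  set A : ℝ := 64 * 4 ^ (P - 2) * Λ ^ 2 with hA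
  have hA0 : 0 < A := by positivity
  refine ⟨4 * C0 + A, by linarith only [hC1, hA0], ?_⟩
  intro V _ _ N f R hR hRn k hk
  rw [← hΛ] at hRn
  have hP0 : 0 < P := by linarith only [hP]
  have h0 := lpd_self f hP0
  have hs := lpd_comm (P := P) f
  have ht := lpd_triangle f (by linarith only [hP] : 1 ≤ P)
  have hρ := lpd_nonneg (P := P) f
  have hpow : ∀ j : ℤ, (0 : ℝ) < 2 ^ j := fun j => zpow_pos (by norm_num) j
  have hR0 : 0 < R := by linarith only [hR]
  have hRP : 1 ≤ R ^ (P - 2) := Real.one_le_rpow hR (by linarith only [hP])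
  set B : ℤ → V → ℝ := fun j x => A * R ^ (P - 2) *
    (2 + (Real.log (nb P f x ((2 : ℝ) ^ (j + (k : ℤ)))) - Real.log (nb P f x ((2 : ℝ) ^ j))))
    with hB
  have hnb : ∀ (j : ℤ) (x : V), 0 ≤ Real.log (nb P f x ((2 : ℝ) ^ (j + (k : ℤ)))) -
      Real.log (nb P f x ((2 : ℝ) ^ j)) := by
    intro j x
    have h1 := one_le_nb f hP0 x (hpow j).le
    have := Real.log_le_log (by linarith only [h1])
      (nb_mono f x (zpow_le_zpow_right₀ (by norm_num : (1 : ℝ) ≤ 2)
        (by omega : j ≤ j + (k : ℤ))))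
    linarith only [this]
  have hB0 : ∀ j x, 0 ≤ B j x := by
    intro j x
    have := hnb j x
    simp only [hB]
    positivity
  have hex : ∀ j : ℤ, ∃ K : V → V → ℝ, IsStoch K ∧
      (∀ x x', lpd P f x x' ≤ (2 : ℝ) ^ j → ∑ y, |K x y - K x' y| ≤ 1 / 2) ∧
      ∀ x, ∑ y, K x y * (lpd P f x y / (2 : ℝ) ^ j) ^ P ≤ 4 * C0 *
        (Real.log (Zf (1 / (16 * (2 : ℝ) ^ j) / 2) (lpd P f) x) -
          Real.log (Zf (1 / (16 * (2 : ℝ) ^ j)) (lpd P f) x)) +
        B j x * min 1 (Real.log (Zf (1 / (16 * (2 : ℝ) ^ j) / 2) (lpd P f) x) -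
          Real.log (Zf (1 / (16 * (2 : ℝ) ^ j)) (lpd P f) x)) := by
    intro j
    obtain ⟨K', hK', hTV, hM⟩ := local_kernel f hP hR hΛ hRn ((2 : ℝ) ^ j) (hpow j)
    refine gibbs_mix_scale' hC1 hC h0 hs ht (hB0 j) (hpow j) hK' hTV fun x => (hM x).trans ?_
    have h1 : nb P f x (2 * (R * (2 : ℝ) ^ j)) ≤ nb P f x ((2 : ℝ) ^ (j + (k : ℤ))) := by
      refine nb_mono f x ?_
      rw [zpow_add₀ (by norm_num), zpow_natCast]
      have := mul_le_mul_of_nonneg_right hk (hpow j).le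
      linarith only [this]
    have h2 := one_le_nb f hP0 x (r := 2 * (R * (2 : ℝ) ^ j))
      (by have := hpow j; positivity)
    have h3 := Real.log_le_log (by linarith only [h2]) h1
    simp only [hB]
    refine mul_le_mul_of_nonneg_left ?_ (by positivity)
    linarith only [h3]
  choose K hK hKTV hKM using hex
  intro J
  refine ⟨K, hK, fun j _ x x' hr => hKTV j x x' hr, fun x => ?_⟩
  set L : ℤ → ℝ := fun j => Real.log (Zf (1 / (16 * (2 : ℝ) ^ j)) (lpd P f) x) with hL
  have hLmono : Monotone L := by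
    intro i j hij
    refine Real.log_le_log (Zf_pos _ _ x) (Zf_anti _ ?_ x (hρ x))
    have h1 : (2 : ℝ) ^ i ≤ 2 ^ j := zpow_le_zpow_right₀ (by norm_num) hij
    have h2 := hpow i
    exact one_div_le_one_div_of_le (by positivity) (by linarith only [h1])
  have hL0 : ∀ j, 0 ≤ L j := fun j => Real.log_nonneg (one_le_Zf _ _ x (h0 x))
  have hLB : ∀ j, L j ≤ Real.log (Fintype.card V) := by
    intro j
    refine Real.log_le_log (Zf_pos _ _ x) (Zf_le_card _ _ ?_ x (hρ x))
    have := hpow j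
    positivity
  have htel := sum_telescope_le L hLmono _ hL0 hLB 1 J
  have hstep : ∀ j : ℤ, Real.log (Zf (1 / (16 * (2 : ℝ) ^ j) / 2) (lpd P f) x) =
      L (j + (1 : ℕ)) := by
    intro j
    simp only [hL]
    congr 2
    rw [Nat.cast_one, zpow_add_one₀ (by norm_num)]
    have := (hpow j).ne'
    field_simp
  have hlog : 0 ≤ Real.log (Fintype.card V) := (hL0 0).trans (hLB 0)
  have hu0 : ∀ j : ℤ, 0 ≤ L (j + (1 : ℕ)) - L j := fun j =>
    sub_nonneg.2 (hLmono (by push_cast; omega))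
  have hterm : ∀ j ∈ J, ∑ y, K j x y * (lpd P f x y / (2 : ℝ) ^ j) ^ P ≤
      (4 * C0 + A * R ^ (P - 2) * 2) * (L (j + (1 : ℕ)) - L j) + A * R ^ (P - 2) *
        (Real.log (nb P f x ((2 : ℝ) ^ (j + (k : ℤ)))) - Real.log (nb P f x ((2 : ℝ) ^ j))) := by
    intro j _
    refine (hKM j x).trans ?_
    have hLj : Real.log (Zf (1 / (16 * (2 : ℝ) ^ j)) (lpd P f) x) = L j := rfl
    rw [hstep j, hLj]
    have e1 : min 1 (L (j + (1 : ℕ)) - L j) ≤ 1 := min_le_left _ _
    have e2 : min 1 (L (j + (1 : ℕ)) - L j) ≤ L (j + (1 : ℕ)) - L j := min_le_right _ _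
    have e3 : 0 ≤ min 1 (L (j + (1 : ℕ)) - L j) := le_min zero_le_one (hu0 j)
    have e4 := hnb j x
    have e5 : 0 ≤ A * R ^ (P - 2) := by positivity
    have e6 : B j x * min 1 (L (j + (1 : ℕ)) - L j) ≤
        A * R ^ (P - 2) * 2 * (L (j + (1 : ℕ)) - L j) + A * R ^ (P - 2) *
        (Real.log (nb P f x ((2 : ℝ) ^ (j + (k : ℤ)))) - Real.log (nb P f x ((2 : ℝ) ^ j))) := by
      simp only [hB]
      have e7 := mul_le_mul_of_nonneg_left e2 (by positivity : 0 ≤ A * R ^ (P - 2) * 2)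
      have e8 := mul_le_mul_of_nonneg_left e1 (mul_nonneg e5 e4)
      calc A * R ^ (P - 2) * (2 + (Real.log (nb P f x ((2 : ℝ) ^ (j + (k : ℤ)))) -
            Real.log (nb P f x ((2 : ℝ) ^ j)))) * min 1 (L (j + (1 : ℕ)) - L j)
          = A * R ^ (P - 2) * 2 * min 1 (L (j + (1 : ℕ)) - L j) + A * R ^ (P - 2) *
            (Real.log (nb P f x ((2 : ℝ) ^ (j + (k : ℤ)))) -
            Real.log (nb P f x ((2 : ℝ) ^ j))) * min 1 (L (j + (1 : ℕ)) - L j) := by ring
        _ ≤ _ := by linarith only [e7, e8]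
    have e9 : (4 * C0 + A * R ^ (P - 2) * 2) * (L (j + (1 : ℕ)) - L j) =
        4 * C0 * (L (j + (1 : ℕ)) - L j) + A * R ^ (P - 2) * 2 * (L (j + (1 : ℕ)) - L j) := by
      ring
    rw [e9]
    linarith only [e6]
  have hsn := sum_nb_le f hP0 x k J
  calc ∑ j ∈ J, ∑ y, K j x y * (lpd P f x y / (2 : ℝ) ^ j) ^ P ≤
      ∑ j ∈ J, ((4 * C0 + A * R ^ (P - 2) * 2) * (L (j + (1 : ℕ)) - L j) + A * R ^ (P - 2) *
        (Real.log (nb P f x ((2 : ℝ) ^ (j + (k : ℤ)))) - Real.log (nb P f x ((2 : ℝ) ^ j)))) :=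
        Finset.sum_le_sum hterm
    _ = (4 * C0 + A * R ^ (P - 2) * 2) * ∑ j ∈ J, (L (j + (1 : ℕ)) - L j) +
        A * R ^ (P - 2) * ∑ j ∈ J, (Real.log (nb P f x ((2 : ℝ) ^ (j + (k : ℤ)))) -
          Real.log (nb P f x ((2 : ℝ) ^ j))) := by
        rw [Finset.sum_add_distrib, Finset.mul_sum, Finset.mul_sum]
    _ ≤ (4 * C0 + A * R ^ (P - 2) * 2) * ((1 : ℕ) * Real.log (Fintype.card V)) +
        A * R ^ (P - 2) * (k * Real.log (Fintype.card V)) :=
        add_le_add (mul_le_mul_of_nonneg_left htel (by positivity))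
          (mul_le_mul_of_nonneg_left hsn (by positivity))
    _ ≤ _ := by
        have f1 : 0 ≤ (k : ℝ) := Nat.cast_nonneg k
        have f2 : 0 ≤ R ^ (P - 2) * Real.log (Fintype.card V) := by positivity
        have f3 : Real.log (Fintype.card V) ≤ R ^ (P - 2) * Real.log (Fintype.card V) := by
          nlinarith only [hRP, hlog]
        have f4 : 4 * C0 * Real.log (Fintype.card V) ≤
            4 * C0 * (R ^ (P - 2) * Real.log (Fintype.card V)) :=
          mul_le_mul_of_nonneg_left f3 (by linarith only [hC1])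
        have f5 : 0 ≤ 4 * C0 * (R ^ (P - 2) * Real.log (Fintype.card V)) * (k + 2) := by
          positivity
        have f6 : 0 ≤ A * (R ^ (P - 2) * Real.log (Fintype.card V)) := by positivity
        push_cast
        calc (4 * C0 + A * R ^ (P - 2) * 2) * (1 * Real.log (Fintype.card V)) +
              A * R ^ (P - 2) * (k * Real.log (Fintype.card V))
            = 4 * C0 * Real.log (Fintype.card V) +
              A * (R ^ (P - 2) * Real.log (Fintype.card V)) * (k + 2) := by ring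
          _ ≤ 4 * C0 * (R ^ (P - 2) * Real.log (Fintype.card V)) +
              A * (R ^ (P - 2) * Real.log (Fintype.card V)) * (k + 2) +
              (4 * C0 * (R ^ (P - 2) * Real.log (Fintype.card V)) * (k + 2) +
              A * (R ^ (P - 2) * Real.log (Fintype.card V))) := by linarith only [f4, f5, f6]
          _ = _ := by ring

end

end Vale.Agent.P249.H560
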