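import Vale.Agent.P249.H560.Exp

/-!
# P249: a bound that is uniform in the distortion
-/

set_option linter.all false

open MeasureTheory Filter Asymptotics
open scoped ENNReal BigOperators

namespace Vale.Agent.P249.H560

open Vale.Agent.P249

/-- `exp (η / 2) ≤ 1 + η` for `0 ≤ η ≤ 1`. -/
theorem exp_half_le {η : ℝ} (h0 : 0 ≤ η) (h1 : η ≤ 1) : Real.exp (η / 2) ≤ 1 + η := by
  have h2 := convexOn_exp.2 (Set.mem_univ (0 : ℝ)) (Set.mem_univ (1 / 2 : ℝ))
    (show 0 ≤ 1 - η by linarith only [h1]) h0 (by ring)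
  simp only [smul_eq_mul, mul_zero, zero_add, Real.exp_zero, mul_one] at h2
  have h3 : η * (1 / 2) = η / 2 := by ring
  rw [h3] at h2
  have h4 : Real.exp (1 / 2) ≤ 2 := by
    have h5 : Real.exp (1 / 2) ^ 2 = Real.exp 1 := by
      rw [← Real.exp_nat_mul]; norm_num
    have h6 := Real.exp_one_lt_d9
    have h7 := Real.exp_pos (1 / 2)
    nlinarith only [h5, h6, h7]
  nlinarith only [h2, h4, h0]

/-- The number of samples in step 0. -/
theorem exists_m {n : ℕ} (hn : 1 ≤ n) {η : ℝ} (h0 : 0 < η) (h1 : η ≤ 1) : ∃ m : ℕ, 0 < m ∧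
    4 * (n : ℝ) ^ 2 * Real.log (2 * (n : ℝ) ^ 2) / (η / 16) ^ 2 ≤ m ∧
    (m : ℝ) ≤ 2050 * (n : ℝ) ^ 3 / η ^ 2 := by
  have hnr : (1 : ℝ) ≤ n := by exact_mod_cast hn
  have hn0' : (0 : ℝ) < n := by linarith only [hnr]
  have hlog : Real.log (2 * (n : ℝ) ^ 2) ≤ 2 * n := by
    rw [Real.log_mul (by norm_num) (by positivity), Real.log_pow]
    have h1 : Real.log n ≤ n - 1 := Real.log_le_sub_one_of_pos hn0'
    have h2 : Real.log 2 < 1 := by linarith only [Real.log_two_lt_d9]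
    push_cast
    linarith only [h1, h2]
  have hlog0 : 0 ≤ Real.log (2 * (n : ℝ) ^ 2) := Real.log_nonneg (by nlinarith only [hnr])
  set T : ℝ := 4 * (n : ℝ) ^ 2 * Real.log (2 * (n : ℝ) ^ 2) / (η / 16) ^ 2 with hT
  have hT0 : 0 ≤ T := by positivity
  refine ⟨⌈T⌉₊ + 1, by omega, ?_, ?_⟩
  · have := Nat.le_ceil T
    push_cast
    linarith only [this]
  · have h3 : (⌈T⌉₊ : ℝ) < T + 1 := Nat.ceil_lt_add_one hT0
    have h2 : T ≤ 2048 * (n : ℝ) ^ 3 / η ^ 2 := by
      rw [hT]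
      have : 4 * (n : ℝ) ^ 2 * Real.log (2 * (n : ℝ) ^ 2) ≤ 8 * (n : ℝ) ^ 3 := by
        calc 4 * (n : ℝ) ^ 2 * Real.log (2 * (n : ℝ) ^ 2) ≤ 4 * (n : ℝ) ^ 2 * (2 * n) :=
              mul_le_mul_of_nonneg_left hlog (by positivity)
          _ = _ := by ring
      calc 4 * (n : ℝ) ^ 2 * Real.log (2 * (n : ℝ) ^ 2) / (η / 16) ^ 2
          ≤ 8 * (n : ℝ) ^ 3 / (η / 16) ^ 2 := div_le_div_of_nonneg_right this (by positivity)
        _ = _ := by field_simp; ring
    have h4 : 1 ≤ (n : ℝ) ^ 3 / η ^ 2 := by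
      rw [le_div_iff₀ (by positivity)]
      have e1 : η ^ 2 ≤ 1 := pow_le_one₀ h0.le h1
      have e2 : (1 : ℝ) ≤ (n : ℝ) ^ 3 := one_le_pow₀ hnr
      linarith only [e1, e2]
    push_cast
    have e3 : 2050 * (n : ℝ) ^ 3 / η ^ 2 = 2048 * (n : ℝ) ^ 3 / η ^ 2 +
        2 * ((n : ℝ) ^ 3 / η ^ 2) := by ring
    rw [e3]
    linarith only [h2, h3, h4]

/-- The bound uniform in the distortion: `d_p(n, 1 + η) ≤ exp (C (log n) ^ θ' / η)`. -/
theorem uniform_of (p : ℝ≥0∞) [Fact (1 ≤ p)] (hp : p ≠ ∞) (θ θ' : ℝ) (hθ0 : 0 < θ) (hθ : θ < θ')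
    (hhalf : NearHalvingStatement p θ) :
    ∃ C : ℝ, 0 < C ∧ ∀ n : ℕ, 2 ≤ n → ∀ η : ℝ, 0 < η → η ≤ 1 →
      ∃ d : ℕ, Admissible p n (1 + η) d ∧ (d : ℝ) ≤ Real.exp (C * Real.log n ^ θ' / η) := by
  obtain ⟨C, hC, H⟩ := hhalf
  obtain ⟨K, hK, hKl⟩ := rpow_mul_log_le hθ
  have hθ'0 : 0 < θ' := by linarith only [hθ0, hθ]
  have h3θ : 0 < (3 : ℝ) ^ θ' := by positivity
  set CA : ℝ := 60 + 100 * (C * K) with hCA
  have hCK : 0 < C * K := by positivity
  refine ⟨CA * 3 ^ θ', by positivity, fun n hn η hη0 hη1 => ?_⟩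
  have hnr : (2 : ℝ) ≤ n := by exact_mod_cast hn
  have hn1 : 1 ≤ n := by omega
  have hn0 : (0 : ℝ) < n := by linarith only [hnr]
  have hlogn : Real.log 2 ≤ Real.log n := Real.log_le_log (by norm_num) hnr
  have hlog2 : (1 : ℝ) / 2 < Real.log 2 := by linarith only [Real.log_two_gt_d9]
  have hl1 : 1 ≤ 1 + Real.log n := by linarith only [hlog2, hlogn]
  have hl3 : 1 + Real.log n ≤ 3 * Real.log n := by linarith only [hlogn, hlog2]
  set l : ℝ := 1 + Real.log n with hl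
  have hlpos : 0 < l := by linarith only [hl1]
  have hlθ' : 1 ≤ l ^ θ' := Real.one_le_rpow hl1 hθ'0.le
  have h1η : 1 ≤ 1 / η := by rw [le_div_iff₀ hη0]; linarith only [hη1]
  -- it suffices to bound the dimension by `exp (CA l ^ θ' / η)`
  have hfin : Real.exp (CA * (l ^ θ' / η)) ≤ Real.exp (CA * 3 ^ θ' * Real.log n ^ θ' / η) := by
    refine Real.exp_le_exp.2 ?_
    have h3 : l ^ θ' ≤ 3 ^ θ' * Real.log n ^ θ' := by
      rw [← Real.mul_rpow (by norm_num) (by linarith only [hlog2, hlogn])]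
      exact Real.rpow_le_rpow hlpos.le hl3 hθ'0.le
    calc CA * (l ^ θ' / η) ≤ CA * (3 ^ θ' * Real.log n ^ θ' / η) :=
          mul_le_mul_of_nonneg_left (div_le_div_of_nonneg_right h3 hη0.le) (by positivity)
      _ = _ := by ring
  have hy : l ^ θ' ≤ l ^ θ' / η := by
    rw [le_div_iff₀ hη0]
    nlinarith only [hη1, hlθ', hη0]
  have hy1 : 1 ≤ l ^ θ' / η := hlθ'.trans hy
  have hyη : 1 / η ≤ l ^ θ' / η := div_le_div_of_nonneg_right hlθ' hη0.le
  obtain ⟨m, hm0, hm1, hm2⟩ := exists_m hn1 hη0 hη1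
  have hε0 : 0 < η / 16 := by positivity
  have hε1 : η / 16 < 1 := by linarith only [hη1]
  have hδ1 : η / 16 ≤ 1 / 2 := by linarith only [hη1]
  have hfour := one_add_div_one_sub_le hε0.le hδ1
  have hD : (1 + η / 16) / (1 - η / 16) * Real.exp (4 * (η / 16)) ≤ 1 + η := by
    calc (1 + η / 16) / (1 - η / 16) * Real.exp (4 * (η / 16))
        ≤ Real.exp (4 * (η / 16)) * Real.exp (4 * (η / 16)) :=
          mul_le_mul_of_nonneg_right hfour (Real.exp_pos _).le
      _ = Real.exp (η / 2) := by rw [← Real.exp_add]; congr 1; ring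
      _ ≤ 1 + η := exp_half_le hη0.le hη1
  -- the trivial embedding
  have htriv : Admissible p n (1 + η) m := by
    intro Ω _ μ X hX
    obtain ⟨f, hf⟩ := embed_all_pairs hp X hε0 hε1 m (by rw [hX]; exact hm1) hm0
    refine ⟨f, ?_⟩
    obtain ⟨s, hs, hf⟩ := hf
    refine ⟨s, hs, fun x hx y hy => ⟨(hf x hx y hy).1, (hf x hx y hy).2.trans ?_⟩⟩
    refine mul_le_mul_of_nonneg_right (mul_le_mul_of_nonneg_right ?_ hs.le) (norm_nonneg _)
    have hP : 0 < p.toReal := toReal_pos_of_fact hp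
    have hP1 : 1 ≤ p.toReal := one_le_toReal_of_fact hp
    have e1 : 1 ≤ (1 + η / 16) / (1 - η / 16) := by
      rw [one_le_div (by linarith only [hε1])]; linarith only [hε0]
    calc ((1 + η / 16) / (1 - η / 16)) ^ (1 / p.toReal)
        ≤ ((1 + η / 16) / (1 - η / 16)) ^ (1 : ℝ) :=
          Real.rpow_le_rpow_of_exponent_le e1 (by rw [div_le_one hP]; exact hP1)
      _ = (1 + η / 16) / (1 - η / 16) := Real.rpow_one _
      _ ≤ (1 + η / 16) / (1 - η / 16) * Real.exp (4 * (η / 16)) := by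
          have e2 : 1 ≤ Real.exp (4 * (η / 16)) := Real.one_le_exp (by positivity)
          nlinarith only [e1, e2]
      _ ≤ 1 + η := hD
  have hlogη : Real.log (1 / η) ≤ 1 / η := by
    have := Real.log_le_sub_one_of_pos (show 0 < 1 / η by positivity)
    linarith only [this]
  have hlogη0 : 0 ≤ Real.log (1 / η) := Real.log_nonneg h1η
  have hmexp : (m : ℝ) ≤ Real.exp (8 + 3 * Real.log n + 2 * (1 / η)) := by
    refine hm2.trans ?_
    have e1 : (2050 : ℝ) ≤ Real.exp 8 := by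
      have h2 := Real.exp_one_gt_d9
      have h3 : Real.exp 8 = Real.exp 1 ^ 8 := by rw [← Real.exp_nat_mul]; norm_num
      rw [h3]
      calc (2050 : ℝ) ≤ 2.6 ^ 8 := by norm_num
        _ ≤ Real.exp 1 ^ 8 := pow_le_pow_left₀ (by norm_num) (by linarith only [h2]) 8
    have e2 : (n : ℝ) ^ 3 = Real.exp (3 * Real.log n) := by
      rw [mul_comm, Real.exp_mul, Real.exp_log hn0]
      norm_num
    have e3 : (1 / η) ^ 2 ≤ Real.exp (2 * (1 / η)) := by
      have e4 : 1 / η ≤ Real.exp (1 / η) := by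
        have := Real.add_one_le_exp (1 / η)
        linarith only [this]
      have e5 : Real.exp (2 * (1 / η)) = Real.exp (1 / η) ^ 2 := by
        rw [← Real.exp_nat_mul]; norm_num
      rw [e5]
      exact pow_le_pow_left₀ (by positivity) e4 2
    have e6 : 2050 * (n : ℝ) ^ 3 / η ^ 2 = 2050 * (n : ℝ) ^ 3 * (1 / η) ^ 2 := by
      field_simp
    rw [e6, Real.exp_add, Real.exp_add, ← e2]
    exact mul_le_mul (mul_le_mul_of_nonneg_right e1 (by positivity)) e3 (by positivity)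
      (by positivity)
  by_cases hbig : C / (η / 16) * (l ^ θ * (2 + 2 * Real.log l)) ≤ 2 * l
  · by_cases hm4 : (m : ℝ) ≤ Real.exp (4 * (1 + Real.log n))
    · -- the main case
      refine ⟨_, admissible_floor p hp (fun Ω _ μ X hX => near_embed p hp hC hε0 hδ1 hε0 hε1 hD H
        hn1 hm0 hm1 hm4 hbig Ω μ X hX), (Nat.floor_le (Real.exp_pos _).le).trans ?_⟩
      refine le_trans (Real.exp_le_exp.2 ?_) hfin
      have h1 := hKl l hl1
      have h2 : C / (η / 16) * (l ^ θ * (2 + 2 * Real.log l)) ≤ 16 * (C * K) * (l ^ θ' / η) := by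
        calc C / (η / 16) * (l ^ θ * (2 + 2 * Real.log l)) ≤ C / (η / 16) * (K * l ^ θ') :=
              mul_le_mul_of_nonneg_left h1 (by positivity)
          _ = _ := by field_simp
      have h3 : 0 ≤ C * K * (l ^ θ' / η) := by positivity
      calc 4 + 2 * (C / (η / 16) * (l ^ θ * (2 + 2 * Real.log l)))
          ≤ 4 * (l ^ θ' / η) + 2 * (16 * (C * K) * (l ^ θ' / η)) := by linarith only [h2, hy1]
        _ ≤ CA * (l ^ θ' / η) := by
            have : CA * (l ^ θ' / η) = 60 * (l ^ θ' / η) + 100 * (C * K * (l ^ θ' / η)) := by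
              rw [hCA]; ring
            rw [this]
            linarith only [h3, hy1]
    · -- small `n`
      refine ⟨m, htriv, hmexp.trans (le_trans (Real.exp_le_exp.2 ?_) hfin)⟩
      push Not at hm4
      have e1 : Real.exp (4 * (1 + Real.log n)) ≤ Real.exp (8 + 3 * Real.log n + 2 * (1 / η)) :=
        hm4.le.trans hmexp
      have e2 := Real.exp_le_exp.1 e1
      have e3 : Real.log n ≤ 4 + 2 * (1 / η) := by linarith only [e2]
      have h3 : 0 ≤ C * K * (l ^ θ' / η) := by positivity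
      have : CA * (l ^ θ' / η) = 60 * (l ^ θ' / η) + 100 * (C * K * (l ^ θ' / η)) := by
        rw [hCA]; ring
      rw [this]
      linarith only [e3, hyη, hy1, h3]
  · -- `η` is small compared with `l ^ (θ' - 1)`
    refine ⟨m, htriv, hmexp.trans (le_trans (Real.exp_le_exp.2 ?_) hfin)⟩
    push Not at hbig
    have h1 := hKl l hl1
    have h2 : C / (η / 16) * (l ^ θ * (2 + 2 * Real.log l)) ≤ 16 * (C * K) * (l ^ θ' / η) := by
      calc C / (η / 16) * (l ^ θ * (2 + 2 * Real.log l)) ≤ C / (η / 16) * (K * l ^ θ') :=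
            mul_le_mul_of_nonneg_left h1 (by positivity)
        _ = _ := by field_simp
    have h3 : 0 ≤ C * K * (l ^ θ' / η) := by positivity
    have : CA * (l ^ θ' / η) = 60 * (l ^ θ' / η) + 100 * (C * K * (l ^ θ' / η)) := by
      rw [hCA]; ring
    rw [this]
    have e4 : Real.log n = l - 1 := by rw [hl]; ring
    rw [e4]
    linarith only [hbig, h2, hyη, hy1, h3]

end Vale.Agent.P249.H560
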